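import Mathlib.Analysis.SpecialFunctions.Log.Basic
import Mathlib.Tactic

/-! Row 325, part I, module M1: the scalar barrier `phi` of the dual l1 interior point method
and its weight `wt = |phi'|`. -/

set_option autoImplicit false

namespace Crest.Agent.N325.Ipm

/-- The barrier: `-log s` above `s0`, `s0/s - 1 - log s0` below. -/
noncomputable def phi (s0 s : ℝ) : ℝ :=
  if s0 ≤ s then -Real.log s else s0 / s - 1 - Real.log s0

/-- The weight `|phi'|`. -/
noncomputable def wt (s0 s : ℝ) : ℝ :=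
  if s0 ≤ s then 1 / s else s0 / s ^ 2

theorem phi_of_le {s0 s : ℝ} (h : s0 ≤ s) : phi s0 s = -Real.log s := by simp [phi, h]

theorem phi_of_lt {s0 s : ℝ} (h : s < s0) : phi s0 s = s0 / s - 1 - Real.log s0 := by
  simp [phi, not_le.mpr h]

theorem wt_of_le {s0 s : ℝ} (h : s0 ≤ s) : wt s0 s = 1 / s := by simp [wt, h]

theorem wt_of_lt {s0 s : ℝ} (h : s < s0) : wt s0 s = s0 / s ^ 2 := by
  simp [wt, not_le.mpr h]

theorem wt_eq_max {s0 s : ℝ} (hs : 0 < s) : wt s0 s = max (1 / s) (s0 / s ^ 2) := by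
  have e : s0 / s ^ 2 = (s0 / s) * (1 / s) := by field_simp
  have h1 : 0 < 1 / s := by positivity
  by_cases h : s0 ≤ s
  · rw [wt_of_le h, max_eq_left]
    have : s0 / s ≤ 1 := (div_le_one hs).2 h
    rw [e]; nlinarith
  · have h' : s < s0 := not_le.mp h
    rw [wt_of_lt h', max_eq_right]
    have : 1 ≤ s0 / s := (one_le_div hs).2 h'.le
    rw [e]; nlinarith

theorem one_div_le_wt {s0 s : ℝ} (hs : 0 < s) : 1 / s ≤ wt s0 s := by
  rw [wt_eq_max hs]; exact le_max_left _ _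

theorem wt_pos {s0 s : ℝ} (hs : 0 < s) : 0 < wt s0 s :=
  lt_of_lt_of_le (by positivity) (one_div_le_wt hs)

theorem one_le_wt_mul {s0 s : ℝ} (hs : 0 < s) : 1 ≤ wt s0 s * s := by
  have := one_div_le_wt (s0 := s0) hs
  rw [div_le_iff₀ hs] at this; exact this

/-- `wt` is antitone. -/
theorem wt_anti {s0 a b : ℝ} (hs0 : 0 ≤ s0) (ha : 0 < a) (hab : a ≤ b) : wt s0 b ≤ wt s0 a := by
  have hb : 0 < b := lt_of_lt_of_le ha hab
  rw [wt_eq_max ha, wt_eq_max hb]
  apply max_le_max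
  · exact one_div_le_one_div_of_le ha hab
  · apply div_le_div_of_nonneg_left hs0 (by positivity)
    nlinarith

theorem neg_log_le_phi {s0 s : ℝ} (hs0 : 0 < s0) (hs : 0 < s) : -Real.log s ≤ phi s0 s := by
  by_cases h : s0 ≤ s
  · rw [phi_of_le h]
  · rw [phi_of_lt (not_le.mp h)]
    have h1 := Real.log_le_sub_one_of_pos (div_pos hs0 hs)
    rw [Real.log_div hs0.ne' hs.ne'] at h1
    linarith

theorem neg_log_tangent {a b : ℝ} (ha : 0 < a) (hb : 0 < b) :
    -Real.log b - (1 / b) * (a - b) ≤ -Real.log a := by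
  have h1 := Real.log_le_sub_one_of_pos (div_pos ha hb)
  rw [Real.log_div ha.ne' hb.ne'] at h1
  have e : (1 / b) * (a - b) = a / b - 1 := by field_simp
  rw [e]; linarith

theorem inv_tangent {s0 a b : ℝ} (hs0 : 0 ≤ s0) (ha : 0 < a) (hb : 0 < b) :
    s0 / b - s0 / b ^ 2 * (a - b) ≤ s0 / a := by
  have e : s0 / a - (s0 / b - s0 / b ^ 2 * (a - b)) = s0 * (a - b) ^ 2 / (a * b ^ 2) := by
    field_simp; ring
  have : 0 ≤ s0 * (a - b) ^ 2 / (a * b ^ 2) := by positivity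
  linarith

/-- Convexity in tangent form. -/
theorem phi_tangent {s0 a b : ℝ} (hs0 : 0 < s0) (ha : 0 < a) (hb : 0 < b) :
    phi s0 b - wt s0 b * (a - b) ≤ phi s0 a := by
  by_cases h : s0 ≤ b
  · rw [phi_of_le h, wt_of_le h]
    exact (neg_log_tangent ha hb).trans (neg_log_le_phi hs0 ha)
  · have h' : b < s0 := not_le.mp h
    rw [phi_of_lt h', wt_of_lt h']
    by_cases h2 : s0 ≤ a
    · rw [phi_of_le h2]
      have t1 := inv_tangent hs0.le hs0 hb
      rw [div_self hs0.ne'] at t1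
      have t2 := neg_log_tangent ha hs0
      have t3 : 1 / s0 ≤ s0 / b ^ 2 := by
        rw [div_le_div_iff₀ hs0 (by positivity)]
        nlinarith
      have t4 : (1 / s0) * (a - s0) ≤ s0 / b ^ 2 * (a - s0) :=
        mul_le_mul_of_nonneg_right t3 (by linarith)
      nlinarith
    · rw [phi_of_lt (not_le.mp h2)]
      have t1 := inv_tangent hs0.le ha hb
      linarith

theorem abs_le_of_wt {s0 s D k : ℝ} (hs : 0 < s) (h : |D| * wt s0 s ≤ k) : |D| ≤ k * s := by
  have h1 := one_le_wt_mul (s0 := s0) hs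
  have h2 := abs_nonneg D
  nlinarith

theorem add_pos_of_wt {s0 s D : ℝ} (hs : 0 < s) (h : |D| * wt s0 s ≤ 1 / 4) : 0 < s + D := by
  have h1 := abs_le_of_wt hs h
  have h2 := neg_abs_le D
  linarith

theorem wt_scale_le {s0 s l : ℝ} (hs : 0 < s) (hl : 0 < l) (hl1 : l ≤ 1) :
    wt s0 (l * s) * l ^ 2 ≤ wt s0 s := by
  rw [wt_eq_max (by positivity : 0 < l * s), wt_eq_max hs, max_mul_of_nonneg _ _ (by positivity)]
  apply max_le_max
  · have : 1 / (l * s) * l ^ 2 = l * (1 / s) := by field_simp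
    rw [this]
    have : 0 < 1 / s := by positivity
    nlinarith
  · have : s0 / (l * s) ^ 2 * l ^ 2 = s0 / s ^ 2 := by field_simp
    rw [this]

theorem le_wt_scale {s0 s l : ℝ} (hs : 0 < s) (hl1 : 1 ≤ l) :
    wt s0 s ≤ wt s0 (l * s) * l ^ 2 := by
  have hl : 0 < l := by linarith
  rw [wt_eq_max (by positivity : 0 < l * s), wt_eq_max hs, max_mul_of_nonneg _ _ (by positivity)]
  apply max_le_max
  · have : 1 / (l * s) * l ^ 2 = l * (1 / s) := by field_simp
    rw [this]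
    have : 0 < 1 / s := by positivity
    nlinarith
  · have : s0 / (l * s) ^ 2 * l ^ 2 = s0 / s ^ 2 := by field_simp
    rw [this]

/-- Stability of the weight. -/
theorem wt_stable {s0 s D k : ℝ} (hs0 : 0 ≤ s0) (hs : 0 < s) (h : |D| * wt s0 s ≤ k)
    (hk : k ≤ 1 / 4) : |wt s0 (s + D) - wt s0 s| ≤ 4 * k * wt s0 s := by
  have hw := wt_pos (s0 := s0) hs
  have hk0 : 0 ≤ k := le_trans (by positivity) h
  have h1 := abs_le_of_wt hs h
  have h2 := neg_abs_le D
  have h3 := le_abs_self D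
  have hlo : (1 - k) * s ≤ s + D := by linarith
  have hhi : s + D ≤ (1 + k) * s := by linarith
  have hp : 0 < (1 - k) * s := by apply mul_pos <;> linarith
  have u1 := wt_anti hs0 hp hlo
  have u2 := wt_scale_le (s0 := s0) hs (by linarith : 0 < 1 - k) (by linarith)
  have l1 := wt_anti hs0 (lt_of_lt_of_le hp hlo) hhi
  have l2 := le_wt_scale (s0 := s0) hs (by linarith : 1 ≤ 1 + k)
  have hw' := wt_pos (s0 := s0) (lt_of_lt_of_le hp hlo)
  set A := wt s0 (s + D)
  set W := wt s0 s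
  have u3 : A * (1 - k) ^ 2 ≤ W := le_trans (mul_le_mul_of_nonneg_right u1 (by positivity)) u2
  have l3 : W ≤ A * (1 + k) ^ 2 := le_trans l2 (mul_le_mul_of_nonneg_right l1 (by positivity))
  rw [abs_le]
  constructor
  · -- W (1 - 4k) ≤ A
    have q : (1 - 4 * k) * (1 + k) ^ 2 ≤ 1 := by nlinarith [mul_nonneg hk0 hk0]
    have q2 : (1 - 4 * k) * W ≤ (1 - 4 * k) * (A * (1 + k) ^ 2) :=
      mul_le_mul_of_nonneg_left l3 (by linarith)
    nlinarith
  · have q : 1 ≤ (1 + 4 * k) * (1 - k) ^ 2 := by nlinarith [mul_nonneg hk0 hk0]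
    have q2 : (1 + 4 * k) * (A * (1 - k) ^ 2) ≤ (1 + 4 * k) * W :=
      mul_le_mul_of_nonneg_left u3 (by linarith)
    nlinarith

/-- Second order upper bound. -/
theorem phi_taylor {s0 s D : ℝ} (hs0 : 0 < s0) (hs : 0 < s) (h : |D| * wt s0 s ≤ 1 / 4) :
    phi s0 (s + D) ≤ phi s0 s - wt s0 s * D + 4 * (wt s0 s * D) ^ 2 := by
  have hp := add_pos_of_wt hs h
  have t := phi_tangent hs0 hs hp
  have st := wt_stable hs0.le hs (le_refl (|D| * wt s0 s)) h
  have hw := wt_pos (s0 := s0) hs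
  have e1 : (wt s0 s - wt s0 (s + D)) * D ≤ |wt s0 (s + D) - wt s0 s| * |D| := by
    rw [← abs_mul]
    have := neg_abs_le ((wt s0 (s + D) - wt s0 s) * D)
    linarith
  have e2 : |wt s0 (s + D) - wt s0 s| * |D| ≤ 4 * (|D| * wt s0 s) * wt s0 s * |D| :=
    mul_le_mul_of_nonneg_right st (abs_nonneg D)
  have e3 : 4 * (|D| * wt s0 s) * wt s0 s * |D| = 4 * (wt s0 s * D) ^ 2 := by
    have : |D| * |D| = D ^ 2 := by rw [← abs_mul, ← sq, abs_of_nonneg (sq_nonneg D)]
    calc 4 * (|D| * wt s0 s) * wt s0 s * |D| = 4 * (wt s0 s) ^ 2 * (|D| * |D|) := by ring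
      _ = 4 * (wt s0 s * D) ^ 2 := by rw [this]; ring
  nlinarith

end Crest.Agent.N325.Ipm
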