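import Crest.Agent.N325.Ipm.Step
import Crest.Agent.N325.Fl.Sharp

/-! Row 325, part I, module M1: one phase of the dual l1 interior point method:
potential lower bound from an anchor, slack ranges, the certificate at a phase end, the end. -/

set_option autoImplicit false
set_option linter.unusedSectionVars false
open Finset

namespace Crest.Agent.N325.Ipm

open Crest.Agent.N325.Fl

variable {V E : Type*} [Fintype V] [Fintype E] [DecidableEq V]

theorem sum_b_mul (src dst : E → V) (c : E → ℝ) {b : V → ℝ} {x : E → ℝ}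
    (hx : ∀ v, dv src dst x v = b v) (y : V → ℝ) :
    ∑ v, b v * y v = ∑ e, c e * x e - ∑ e, x e * slack src dst c y e := by
  have h := sum_mul_dv src dst y x
  simp only [hx] at h
  rw [← sum_sub_distrib]
  calc ∑ v, b v * y v = ∑ v, y v * b v := sum_congr rfl fun v _ => mul_comm _ _
    _ = _ := h
    _ = _ := sum_congr rfl fun e _ => by unfold slack; ring

/-- one term of the potential difference. -/
noncomputable def term (s0 X s s' : ℝ) : ℝ := X * (s' - s) + phi s0 s' - phi s0 s

theorem pot_sub (src dst : E → V) (c : E → ℝ) {b : V → ℝ} {x : E → ℝ}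
    (hx : ∀ v, dv src dst x v = b v) (s0 T : ℝ) (y y' : V → ℝ) :
    pot src dst c b s0 T y' - pot src dst c b s0 T y =
      ∑ e, term s0 (T * x e) (slack src dst c y e) (slack src dst c y' e) := by
  unfold pot term
  rw [sum_b_mul src dst c hx y, sum_b_mul src dst c hx y']
  simp only [mul_sub, sum_sub_distrib, sum_add_distrib, mul_assoc, ← mul_sum]
  ring

theorem term_ge_half {s0 X s s' α : ℝ} (hs0 : 0 < s0) (hs : s0 ≤ s) (hs' : 0 < s') (hα : 0 < α)
    (h1 : α ≤ X * s) (h3 : X * s ≤ 3) :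
    X * s' / 2 - (3 - Real.log α) ≤ term s0 X s s' := by
  have hsp : 0 < s := lt_of_lt_of_le hs0 hs
  have hX : 0 < X := by
    by_contra h
    have : X * s ≤ 0 := mul_nonpos_of_nonpos_of_nonneg (not_lt.mp h) hsp.le
    linarith
  unfold term
  rw [phi_of_le hs]
  have a1 := neg_log_le_phi hs0 hs'
  have a2 := Real.log_le_sub_one_of_pos (show 0 < X * s' / 2 by positivity)
  rw [Real.log_div (by positivity) (by norm_num), Real.log_mul hX.ne' hs'.ne'] at a2
  have a3 := Real.log_le_log hα h1
  rw [Real.log_mul hX.ne' hsp.ne'] at a3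
  have a4 := Real.log_le_sub_one_of_pos (show (0 : ℝ) < 2 by norm_num)
  nlinarith

theorem term_ge {s0 X s s' α : ℝ} (hs0 : 0 < s0) (hs : s0 ≤ s) (hs' : 0 < s') (hα : 0 < α)
    (h1 : α ≤ X * s) (h3 : X * s ≤ 3) : -(3 - Real.log α) ≤ term s0 X s s' := by
  have hsp : 0 < s := lt_of_lt_of_le hs0 hs
  have hX : 0 < X := by
    by_contra h
    have : X * s ≤ 0 := mul_nonpos_of_nonpos_of_nonneg (not_lt.mp h) hsp.le
    linarith
  have := term_ge_half hs0 hs hs' hα h1 h3
  have : 0 < X * s' / 2 := by positivity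
  linarith

theorem term_ge_small {s0 X s s' : ℝ} (hs0 : 0 < s0) (hs : s0 ≤ s) (hs' : 0 < s') (hlt : s' < s0)
    (hX : 0 ≤ X) (h3 : X * s ≤ 3) : s0 / s' - 4 ≤ term s0 X s s' := by
  unfold term
  rw [phi_of_le hs, phi_of_lt hlt]
  have a1 := Real.log_le_log hs0 hs
  have a2 : 0 ≤ X * s' := by positivity
  nlinarith

/-- An anchor of a phase with parameter `T`: a feasible primal `x` and potentials `y` with
slacks `≥ s0` and products `T x s ∈ [α, 3]`; `Λ ≥ 3 - log α`. -/
structure Anchor (src dst : E → V) (c : E → ℝ) (b : V → ℝ) (s0 T α Λ : ℝ) (y : V → ℝ)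
    (x : E → ℝ) : Prop where
  feas : ∀ v, dv src dst x v = b v
  big : ∀ e, s0 ≤ slack src dst c y e
  lo : ∀ e, α ≤ T * x e * slack src dst c y e
  hi : ∀ e, T * x e * slack src dst c y e ≤ 3
  pos : 0 < α
  lam : 3 - Real.log α ≤ Λ
  lam0 : 0 ≤ Λ

section anchor
variable {src dst : E → V} {c : E → ℝ} {b : V → ℝ} {s0 T α Λ : ℝ} {y : V → ℝ} {x : E → ℝ}

theorem Anchor.term_ge (h : Anchor src dst c b s0 T α Λ y x) (hs0 : 0 < s0) {y' : V → ℝ}
    (hs' : ∀ e, 0 < slack src dst c y' e) (e : E) :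
    -Λ ≤ term s0 (T * x e) (slack src dst c y e) (slack src dst c y' e) := by
  have := Ipm.term_ge hs0 (h.big e) (hs' e) h.pos (h.lo e) (h.hi e)
  have := h.lam
  linarith

/-- the potential cannot drop by more than `m Λ` during the phase. -/
theorem Anchor.pot_ge (h : Anchor src dst c b s0 T α Λ y x) (hs0 : 0 < s0) {y' : V → ℝ}
    (hs' : ∀ e, 0 < slack src dst c y' e) :
    pot src dst c b s0 T y - Fintype.card E * Λ ≤ pot src dst c b s0 T y' := by
  have h1 := pot_sub src dst c h.feas s0 T y y'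
  have h2 := sum_le_sum (s := univ) fun e _ => h.term_ge hs0 hs' e
  rw [sum_const, card_univ, nsmul_eq_mul] at h2
  linarith

theorem Anchor.term_le (h : Anchor src dst c b s0 T α Λ y x) (hs0 : 0 < s0) {y' : V → ℝ}
    (hs' : ∀ e, 0 < slack src dst c y' e)
    (hp : pot src dst c b s0 T y' ≤ pot src dst c b s0 T y) (e : E) :
    term s0 (T * x e) (slack src dst c y e) (slack src dst c y' e) ≤ Fintype.card E * Λ := by
  have h1 := pot_sub src dst c h.feas s0 T y y'
  have h2 : term s0 (T * x e) (slack src dst c y e) (slack src dst c y' e) + Λ ≤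
      ∑ e, (term s0 (T * x e) (slack src dst c y e) (slack src dst c y' e) + Λ) :=
    single_le_sum (f := fun e => term s0 (T * x e) (slack src dst c y e) (slack src dst c y' e) + Λ)
      (fun e _ => by have := h.term_ge hs0 hs' e; linarith) (mem_univ e)
  rw [sum_add_distrib, sum_const, card_univ, nsmul_eq_mul] at h2
  have := h.lam0
  linarith

/-- lower range of the slacks during the phase. -/
theorem Anchor.slack_lo (h : Anchor src dst c b s0 T α Λ y x) (hs0 : 0 < s0) {y' : V → ℝ}
    (hs' : ∀ e, 0 < slack src dst c y' e)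
    (hp : pot src dst c b s0 T y' ≤ pot src dst c b s0 T y) (e : E) :
    s0 ≤ (Fintype.card E * Λ + 4) * slack src dst c y' e := by
  have h0 : 0 ≤ (Fintype.card E : ℝ) * Λ := mul_nonneg (Nat.cast_nonneg _) h.lam0
  have hs := hs' e
  by_cases hlt : slack src dst c y' e < s0
  · have hsp : 0 < slack src dst c y e := lt_of_lt_of_le hs0 (h.big e)
    have hX : 0 ≤ T * x e := by
      by_contra hn
      have : T * x e * slack src dst c y e ≤ 0 :=
        mul_nonpos_of_nonpos_of_nonneg (not_le.mp hn).le hsp.le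
      have := h.lo e
      have := h.pos
      linarith
    have h1 := term_ge_small hs0 (h.big e) hs hlt hX (h.hi e)
    have h2 := h.term_le hs0 hs' hp e
    have h3 : s0 / slack src dst c y' e ≤ Fintype.card E * Λ + 4 := by linarith
    rwa [div_le_iff₀ hs] at h3
  · have := not_lt.mp hlt
    nlinarith

/-- upper range of the slacks during the phase. -/
theorem Anchor.slack_hi (h : Anchor src dst c b s0 T α Λ y x) (hs0 : 0 < s0) {y' : V → ℝ}
    (hs' : ∀ e, 0 < slack src dst c y' e)
    (hp : pot src dst c b s0 T y' ≤ pot src dst c b s0 T y) (e : E) :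
    α * slack src dst c y' e ≤ 2 * ((Fintype.card E + 1) * Λ) * slack src dst c y e := by
  have h1 := term_ge_half hs0 (h.big e) (hs' e) h.pos (h.lo e) (h.hi e)
  have h2 := h.term_le hs0 hs' hp e
  have h3 := h.lam
  have hsp : 0 < slack src dst c y e := lt_of_lt_of_le hs0 (h.big e)
  have h4 : T * x e * slack src dst c y' e ≤ 2 * ((Fintype.card E + 1) * Λ) := by linarith
  have h5 := mul_le_mul_of_nonneg_right (h.lo e) (hs' e).le
  have h6 := mul_le_mul_of_nonneg_right h4 hsp.le
  nlinarith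

end anchor

/-- The certificate at the end of a phase. -/
structure Cert (src dst : E → V) (c : E → ℝ) (b : V → ℝ) (s0 t : ℝ) (y : V → ℝ)
    (x : E → ℝ) : Prop where
  feas : ∀ v, dv src dst x v = b v
  pos : ∀ e, 0 < slack src dst c y e
  lo : ∀ e, 3 / 4 * wt s0 (slack src dst c y e) ≤ t * x e
  hi : ∀ e, t * x e ≤ 5 / 4 * wt s0 (slack src dst c y e)

/-- no good cut gives a certificate. -/
theorem exists_cert (src dst : E → V) (c : E → ℝ) (b : V → ℝ) {s0 t : ℝ} (ht : 0 < t)
    (y : V → ℝ) {u w : E → ℝ} {κ ρ K : ℝ} (hκ : 0 ≤ κ) (hρ : 0 ≤ ρ) (hK : (κ + ρ) * K ≤ 1 / 4)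
    (hs : ∀ e, 0 < slack src dst c y e) (hu0 : ∀ e, 0 ≤ u e)
    (hu : ∀ e, u e ≤ K * wt s0 (slack src dst c y e))
    (hw : ∀ e, |w e - wt s0 (slack src dst c y e)| ≤ κ * u e)
    (hno : ∀ S : Finset V, |grad src dst b t w S| ≤ ρ * cut src dst u S) :
    ∃ x, Cert src dst c b s0 t y x := by
  have hcut : ∀ S : Finset V, ρ * cut src dst u S = cut src dst (fun e => ρ * u e) S := by
    intro S; rw [cut_eq, cut_eq, mul_sum]; exact sum_congr rfl fun e _ => by ring
  obtain ⟨z, hz, hzu⟩ := gale src dst (fun e => ρ * u e) (fun e => mul_nonneg hρ (hu0 e))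
    (fun v => dv src dst w v - t * b v) (fun S => by rw [← hcut]; exact hno S)
  have key : ∀ e, |w e - z e - wt s0 (slack src dst c y e)| ≤ 1 / 4 * wt s0 (slack src dst c y e) := by
    intro e
    have h1 := hw e
    have h2 := hzu e
    have h3 := mul_le_mul_of_nonneg_left (hu e) (add_nonneg hκ hρ)
    have h4 := mul_le_mul_of_nonneg_right hK (wt_pos (s0 := s0) (hs e)).le
    rw [abs_le] at h1 h2 ⊢
    constructor <;> nlinarith [h1.1, h1.2, h2.1, h2.2]
  refine ⟨fun e => t⁻¹ * (w e - z e), fun v => ?_, hs, fun e => ?_, fun e => ?_⟩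
  · rw [dv_smul, dv_sub, hz]; field_simp; ring
  · have := (abs_le.1 (key e)).1
    rw [← mul_assoc, mul_inv_cancel₀ ht.ne', one_mul]; linarith
  · have := (abs_le.1 (key e)).2
    rw [← mul_assoc, mul_inv_cancel₀ ht.ne', one_mul]; linarith

section cert
variable {src dst : E → V} {c : E → ℝ} {b : V → ℝ} {s0 t : ℝ} {y : V → ℝ} {x : E → ℝ}

theorem Cert.x_pos (h : Cert src dst c b s0 t y x) (ht : 0 < t) (e : E) : 0 < x e := by
  have h1 := h.lo e
  have h2 := wt_pos (s0 := s0) (h.pos e)
  by_contra hn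
  have : t * x e ≤ 0 := mul_nonpos_of_nonneg_of_nonpos ht.le (not_lt.mp hn)
  linarith

/-- at a phase end no slack is below `s0`. -/
theorem Cert.big (h : Cert src dst c b s0 t y x) (ht : 0 < t) (hs0 : 0 < s0) (hc : ∀ e, 1 ≤ c e)
    {x0 : E → ℝ} (hx0 : ∀ e, 0 ≤ x0 e) (hf0 : ∀ v, dv src dst x0 v = b v) {M : ℝ}
    (hM : ∑ e, c e * x0 e ≤ M) (hsm : s0 * (4 * (2 * Fintype.card E + t * M)) < 1) (e : E) :
    s0 ≤ slack src dst c y e := by
  by_contra hn
  have hlt : slack src dst c y e < s0 := not_le.mp hn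
  have hm : (1 : ℝ) ≤ Fintype.card E := by
    have : 0 < Fintype.card E := Fintype.card_pos_iff.2 ⟨e⟩
    exact_mod_cast this
  have hM0 : 0 ≤ M := le_trans (sum_nonneg fun e _ => mul_nonneg (by linarith [hc e]) (hx0 e)) hM
  have htM : 0 ≤ t * M := by positivity
  have hs8 : s0 ≤ 1 / 8 := by nlinarith
  have e1 := sum_b_mul src dst c h.feas y
  have e2 := sum_b_mul src dst c hf0 y
  have e3 : 0 ≤ ∑ e, x0 e * slack src dst c y e :=
    sum_nonneg fun e _ => mul_nonneg (hx0 e) (h.pos e).le
  -- sum of t x (c - s) + 5/4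
  have hterm : ∀ e', 0 ≤ t * x e' * (c e' - slack src dst c y e') + 5 / 4 := by
    intro e'
    have hx := mul_pos ht (h.x_pos ht e')
    by_cases hb : s0 ≤ slack src dst c y e'
    · have h1 := h.hi e'
      rw [wt_of_le hb] at h1
      have h2 := mul_le_mul_of_nonneg_right h1 (h.pos e').le
      have h3 : 5 / 4 * (1 / slack src dst c y e') * slack src dst c y e' = 5 / 4 := by
        have := (h.pos e').ne'
        field_simp
      have := hc e'
      nlinarith
    · have := not_le.mp hb
      have := hc e'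
      nlinarith
  have h1 : t * x e * (c e - slack src dst c y e) + 5 / 4 ≤
      ∑ e', (t * x e' * (c e' - slack src dst c y e') + 5 / 4) :=
    single_le_sum (f := fun e' => t * x e' * (c e' - slack src dst c y e') + 5 / 4)
      (fun e' _ => hterm e') (mem_univ e)
  have h2 : ∑ e', (t * x e' * (c e' - slack src dst c y e') + 5 / 4) =
      t * (∑ e, c e * x e - ∑ e, x e * slack src dst c y e) + Fintype.card E * (5 / 4) := by
    rw [sum_add_distrib, sum_const, card_univ, nsmul_eq_mul, ← sum_sub_distrib, mul_sum]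
    congr 1
    exact sum_congr rfl fun e _ => by ring
  have h3 : ∑ e, c e * x e - ∑ e, x e * slack src dst c y e ≤ M := by linarith
  have h4 := mul_le_mul_of_nonneg_left h3 ht.le
  have h5 : 1 / s0 ≤ wt s0 (slack src dst c y e) :=
    (one_div_le_one_div_of_le (h.pos e) hlt.le).trans (one_div_le_wt (h.pos e))
  have h6 := h.lo e
  have h7 : 3 / 4 * (1 / s0) * (1 / 2) ≤ t * x e * (c e - slack src dst c y e) := by
    apply mul_le_mul (by linarith) (by linarith [hc e]) (by norm_num)
    exact (mul_pos ht (h.x_pos ht e)).le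
  have h8 : 3 / 8 * (1 / s0) ≤ t * M + Fintype.card E * (5 / 4) := by linarith
  have h9 := mul_le_mul_of_nonneg_left h8 hs0.le
  have h10 : s0 * (3 / 8 * (1 / s0)) = 3 / 8 := by field_simp
  nlinarith

theorem Cert.prod (h : Cert src dst c b s0 t y x) (hb : ∀ e, s0 ≤ slack src dst c y e) (e : E) :
    3 / 4 ≤ t * x e * slack src dst c y e ∧ t * x e * slack src dst c y e ≤ 5 / 4 := by
  have h1 := mul_le_mul_of_nonneg_right (h.lo e) (h.pos e).le
  have h2 := mul_le_mul_of_nonneg_right (h.hi e) (h.pos e).le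
  rw [wt_of_le (hb e)] at h1 h2
  have h3 : 1 / slack src dst c y e * slack src dst c y e = 1 := by
    have := (h.pos e).ne'
    field_simp
  constructor <;> nlinarith

/-- the certificate is the anchor of the next phase. -/
theorem Cert.anchor (h : Cert src dst c b s0 t y x) (hb : ∀ e, s0 ≤ slack src dst c y e) {Λ : ℝ}
    (hΛ : 3 ≤ Λ) : Anchor src dst c b s0 (2 * t) 1 Λ y x where
  feas := h.feas
  big := hb
  lo := fun e => by have := (h.prod hb e).1; linarith
  hi := fun e => by have := (h.prod hb e).2; linarith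
  pos := one_pos
  lam := by simpa using hΛ
  lam0 := by linarith

/-- the duality gap. -/
theorem Cert.gap (h : Cert src dst c b s0 t y x) (hb : ∀ e, s0 ≤ slack src dst c y e) :
    t * ∑ e, x e * slack src dst c y e ≤ 5 / 4 * Fintype.card E := by
  have h1 := sum_le_sum (s := univ) fun e _ => (h.prod hb e).2
  rw [sum_const, card_univ, nsmul_eq_mul] at h1
  rw [mul_sum]
  simp only [← mul_assoc]
  linarith

/-- upper bound on the slacks at a phase end. -/
theorem Cert.slack_le (h : Cert src dst c b s0 t y x) (ht : 0 < t)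
    (hb : ∀ e, s0 ≤ slack src dst c y e) (hc : ∀ e, 0 ≤ c e)
    {x0 : E → ℝ} (hx0 : ∀ e, 1 ≤ x0 e) (hf0 : ∀ v, dv src dst x0 v = b v) {M : ℝ}
    (hM : ∑ e, c e * x0 e ≤ M) (e : E) :
    t * slack src dst c y e ≤ t * M + 5 / 4 * Fintype.card E := by
  have e1 := sum_b_mul src dst c h.feas y
  have e2 := sum_b_mul src dst c hf0 y
  have e3 : 0 ≤ ∑ e, c e * x e := sum_nonneg fun e _ => mul_nonneg (hc e) (h.x_pos ht e).le
  have e4 : x0 e * slack src dst c y e ≤ ∑ e, x0 e * slack src dst c y e :=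
    single_le_sum (f := fun e => x0 e * slack src dst c y e)
      (fun e _ => mul_nonneg (by linarith [hx0 e]) (h.pos e).le) (mem_univ e)
  have e5 : slack src dst c y e ≤ x0 e * slack src dst c y e := by
    have := hx0 e; have := h.pos e; nlinarith
  have e6 := h.gap hb
  have e7 : slack src dst c y e ≤ M + ∑ e, x e * slack src dst c y e := by linarith
  have := mul_le_mul_of_nonneg_left e7 ht.le
  linarith

/-- **End.** once `t ≥ 10 m` the support of the unique optimum is read off the weights. -/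
theorem Cert.support {ci xs : E → ℤ} (h : Cert src dst (fun e => (ci e : ℝ)) b s0 t y x)
    (ht : 0 < t) (hb : ∀ e, s0 ≤ slack src dst (fun e => (ci e : ℝ)) y e)
    (hU : Uniq src dst ci xs) (hxs : ∀ v, ((dv src dst xs v : ℤ) : ℝ) = b v)
    (hbig : 10 * (Fintype.card E : ℝ) ≤ t) {w : E → ℝ}
    (hw : ∀ e, |w e - wt s0 (slack src dst (fun e => (ci e : ℝ)) y e)| ≤
      1 / 4 * wt s0 (slack src dst (fun e => (ci e : ℝ)) y e)) (e : E) :
    xs e ≠ 0 ↔ t ≤ 2 * w e := by
  have hsh := hU.sharp x (fun e => (h.x_pos ht e).le) (fun v => by rw [h.feas, hxs]) e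
  have e1 := sum_b_mul src dst (fun e => (ci e : ℝ)) h.feas y
  have e2 := sum_b_mul src dst (fun e => (ci e : ℝ)) (x := fun e => (xs e : ℝ)) (b := b)
    (fun v => by rw [dv_cast, hxs]) y
  have e3 : 0 ≤ ∑ e, (xs e : ℝ) * slack src dst (fun e => (ci e : ℝ)) y e :=
    sum_nonneg fun e _ => mul_nonneg (by exact_mod_cast hU.1 e) (h.pos e).le
  have e4 := h.gap hb
  have e5 : |x e - xs e| ≤ ∑ e, x e * slack src dst (fun e => (ci e : ℝ)) y e := by linarith
  have e6 : t * |x e - xs e| ≤ t / 8 := by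
    have := mul_le_mul_of_nonneg_left e5 ht.le
    linarith
  have e7 : |x e - xs e| ≤ 1 / 8 := by
    by_contra hn
    have := mul_lt_mul_of_pos_left (not_le.mp hn) ht
    linarith
  have h1 := h.lo e
  have h2 := h.hi e
  have h3 := abs_le.1 (hw e)
  have h4 := abs_le.1 e7
  constructor
  · intro hne
    have : (1 : ℝ) ≤ xs e := by
      have := hU.1 e
      have : 1 ≤ xs e := by omega
      exact_mod_cast this
    have h5 : 7 / 8 ≤ x e := by linarith [h4.1]
    have := mul_le_mul_of_nonneg_left h5 ht.le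
    linarith [h3.1]
  · intro hle h0
    rw [h0] at h4
    have h5 : x e ≤ 1 / 8 := by simpa using h4.2
    have := mul_le_mul_of_nonneg_left h5 ht.le
    linarith [h3.2]

end cert

end Crest.Agent.N325.Ipm
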