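import Crest.Agent.N325.Ipm.Phi
import Crest.Agent.N325.Fl.Gale

/-! Row 325, part I, module M1: one step of the dual l1 interior point method. -/

set_option autoImplicit false
open Finset

namespace Crest.Agent.N325.Ipm

open Crest.Agent.N325.Fl

variable {V E : Type*} [Fintype V] [Fintype E] [DecidableEq V]

/-- the slack of the arc `e` under the potentials `y`. -/
def slack (src dst : E → V) (c : E → ℝ) (y : V → ℝ) (e : E) : ℝ :=
  c e - (y (dst e) - y (src e))

/-- the barrier function `f_t`. -/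
noncomputable def pot (src dst : E → V) (c : E → ℝ) (b : V → ℝ) (s0 t : ℝ) (y : V → ℝ) : ℝ :=
  -t * ∑ v, b v * y v + ∑ e, phi s0 (slack src dst c y e)

/-- add `a` on the set `C`. -/
def shift (y : V → ℝ) (C : Finset V) (a : ℝ) : V → ℝ :=
  fun v => y v + if v ∈ C then a else 0

/-- the approximate gradient summed over `C`. -/
def grad (src dst : E → V) (b : V → ℝ) (t : ℝ) (w : E → ℝ) (C : Finset V) : ℝ :=
  ∑ v ∈ C, (dv src dst w v - t * b v)

/-- `+1` if `e` enters `C`, `-1` if it leaves `C`, `0` otherwise. -/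
def sgn (src dst : E → V) (C : Finset V) (e : E) : ℝ :=
  (if dst e ∈ C then 1 else 0) - (if src e ∈ C then 1 else 0)

omit [Fintype V] [Fintype E] in
theorem abs_sgn (src dst : E → V) (C : Finset V) (e : E) :
    |sgn src dst C e| = if (src e ∈ C ↔ dst e ∈ C) then 0 else 1 := by
  unfold sgn
  by_cases h1 : src e ∈ C <;> by_cases h2 : dst e ∈ C <;> simp [h1, h2]

omit [Fintype V] [Fintype E] in
theorem slack_shift (src dst : E → V) (c : E → ℝ) (y : V → ℝ) (C : Finset V) (a : ℝ) (e : E) :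
    slack src dst c (shift y C a) e = slack src dst c y e + -(a * sgn src dst C e) := by
  unfold slack shift sgn
  by_cases h1 : src e ∈ C <;> by_cases h2 : dst e ∈ C <;> simp [h1, h2] <;> ring

omit [Fintype V] [Fintype E] in
theorem abs_slack_shift_sub (src dst : E → V) (c : E → ℝ) (y : V → ℝ) (C : Finset V) (a : ℝ)
    (e : E) : |slack src dst c (shift y C a) e - slack src dst c y e| =
      if (src e ∈ C ↔ dst e ∈ C) then 0 else |a| := by
  rw [slack_shift, add_sub_cancel_left, abs_neg, abs_mul, abs_sgn]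
  split_ifs <;> simp

theorem sum_dv_set (src dst : E → V) (z : E → ℝ) (C : Finset V) :
    ∑ v ∈ C, dv src dst z v = ∑ e, z e * sgn src dst C e := by
  have h := sum_mul_dv src dst (fun v => if v ∈ C then (1 : ℝ) else 0) z
  simp only [ite_mul, one_mul, zero_mul] at h
  rw [sum_ite_mem, univ_inter] at h
  rw [h]; rfl

omit [Fintype V] in
theorem cut_eq (src dst : E → V) (u : E → ℝ) (C : Finset V) :
    cut src dst u C = ∑ e, u e * |sgn src dst C e| := by
  unfold cut
  refine sum_congr rfl fun e _ => ?_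
  rw [abs_sgn]; split_ifs <;> simp

theorem grad_eq (src dst : E → V) (b : V → ℝ) (t : ℝ) (w : E → ℝ) (C : Finset V) :
    grad src dst b t w C = ∑ e, w e * sgn src dst C e - t * ∑ v ∈ C, b v := by
  unfold grad
  rw [sum_sub_distrib, sum_dv_set, mul_sum]

theorem sum_mul_shift (b y : V → ℝ) (C : Finset V) (a : ℝ) :
    ∑ v, b v * shift y C a v = ∑ v, b v * y v + a * ∑ v ∈ C, b v := by
  unfold shift
  simp only [mul_add, sum_add_distrib, mul_ite, mul_zero]
  rw [sum_ite_mem, univ_inter, mul_sum]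
  congr 1
  exact sum_congr rfl fun v _ => mul_comm _ _

omit [Fintype V] in
theorem mul_abs_sgn_le_cut (src dst : E → V) {u : E → ℝ} (hu : ∀ e, 0 ≤ u e) (C : Finset V)
    (e : E) : u e * |sgn src dst C e| ≤ cut src dst u C := by
  rw [cut_eq]
  exact single_le_sum (f := fun e => u e * |sgn src dst C e|)
    (fun e _ => mul_nonneg (hu e) (abs_nonneg _)) (mem_univ e)

omit [Fintype V] in
/-- the movement of one slack, measured in the weight, is at most `|a| * cap`. -/
theorem move_le (src dst : E → V) {u w : E → ℝ} (hw0 : ∀ e, 0 ≤ w e) (hwu : ∀ e, w e ≤ u e)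
    (C : Finset V) {cap : ℝ} (hcap : cut src dst u C ≤ cap) (a : ℝ) (e : E) :
    |-(a * sgn src dst C e)| * w e ≤ |a| * cap := by
  have h1 := mul_abs_sgn_le_cut src dst (fun e => (hw0 e).trans (hwu e)) C e
  rw [abs_neg, abs_mul, mul_assoc]
  refine mul_le_mul_of_nonneg_left ?_ (abs_nonneg a)
  have := mul_le_mul_of_nonneg_left (hwu e) (abs_nonneg (sgn src dst C e))
  linarith

omit [Fintype V] in
/-- slacks stay positive. -/
theorem slack_shift_pos (src dst : E → V) (c : E → ℝ) {s0 : ℝ} (y : V → ℝ) {u : E → ℝ}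
    (hs : ∀ e, 0 < slack src dst c y e) (hu : ∀ e, wt s0 (slack src dst c y e) ≤ u e)
    (C : Finset V) {cap a : ℝ} (hcap : cut src dst u C ≤ cap) (ha : |a| * cap ≤ 1 / 4) (e : E) :
    0 < slack src dst c (shift y C a) e := by
  rw [slack_shift]
  exact add_pos_of_wt (hs e)
    ((move_le src dst (fun e => (wt_pos (hs e)).le) hu C hcap a e).trans ha)

/-- The step inequality with free parameters. -/
theorem pot_shift_le (src dst : E → V) (c : E → ℝ) (b : V → ℝ) {s0 : ℝ} (hs0 : 0 < s0) (t : ℝ)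
    (y : V → ℝ) {u w : E → ℝ} {κ : ℝ} (hκ : 0 ≤ κ)
    (hs : ∀ e, 0 < slack src dst c y e) (hu : ∀ e, wt s0 (slack src dst c y e) ≤ u e)
    (hw : ∀ e, |w e - wt s0 (slack src dst c y e)| ≤ κ * u e)
    (C : Finset V) {cap a : ℝ} (hcap : cut src dst u C ≤ cap) (ha : |a| * cap ≤ 1 / 4) :
    pot src dst c b s0 t (shift y C a) ≤ pot src dst c b s0 t y + a * grad src dst b t w C
      + κ * (|a| * cap) + 4 * (|a| * cap) ^ 2 := by
  set W : E → ℝ := fun e => wt s0 (slack src dst c y e) with hW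
  have hW0 : ∀ e, 0 ≤ W e := fun e => (wt_pos (hs e)).le
  have hmv : ∀ e, |-(a * sgn src dst C e)| * W e ≤ |a| * cap :=
    fun e => move_le src dst hW0 hu C hcap a e
  have hβ : 0 ≤ |a| * cap := by
    have h0 : 0 ≤ cut src dst u C := by
      rw [cut_eq]
      exact sum_nonneg fun e _ => mul_nonneg ((hW0 e).trans (hu e)) (abs_nonneg _)
    exact mul_nonneg (abs_nonneg a) (h0.trans hcap)
  have hterm : ∀ e, phi s0 (slack src dst c (shift y C a) e) ≤
      phi s0 (slack src dst c y e) + a * (w e * sgn src dst C e)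
        + (κ + 4 * (|a| * cap)) * (|a| * (u e * |sgn src dst C e|)) := by
    intro e
    rw [slack_shift]
    have h1 := phi_taylor hs0 (hs e) ((hmv e).trans ha)
    have h2 := hmv e
    have h3 := hw e
    have h4 := hu e
    have h5 := hW0 e
    simp only [hW] at h2 h5
    set σ := sgn src dst C e
    set x := wt s0 (slack src dst c y e)
    rw [abs_neg, abs_mul] at h2
    have hσ := abs_nonneg σ
    have ha0 := abs_nonneg a
    have e1 : (x * -(a * σ)) ^ 2 = (|a| * |σ| * x) * (|a| * |σ| * x) := by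
      have : (|a| * |σ|) * (|a| * |σ|) = (a * σ) ^ 2 := by
        rw [← abs_mul, abs_mul_abs_self, sq]
      calc (x * -(a * σ)) ^ 2 = (a * σ) ^ 2 * x ^ 2 := by ring
        _ = (|a| * |σ|) * (|a| * |σ|) * x ^ 2 := by rw [this]
        _ = _ := by ring
    have e2 : (|a| * |σ| * x) * (|a| * |σ| * x) ≤ (|a| * cap) * (|a| * (u e * |σ|)) := by
      apply mul_le_mul h2 _ (by positivity) hβ
      have := mul_le_mul_of_nonneg_left h4 (mul_nonneg ha0 hσ)
      linarith
    have e3 : a * σ * (x - w e) ≤ κ * (|a| * (u e * |σ|)) := by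
      have h6 : a * σ * (x - w e) ≤ |a| * |σ| * |w e - x| := by
        rw [← abs_mul, ← abs_mul]
        have := neg_abs_le (a * σ * (w e - x))
        linarith
      have h7 := mul_le_mul_of_nonneg_left h3 (mul_nonneg ha0 hσ)
      linarith
    nlinarith
  have hsum := sum_le_sum (s := univ) fun e _ => hterm e
  rw [sum_add_distrib, sum_add_distrib, ← mul_sum, ← mul_sum, ← mul_sum, ← cut_eq] at hsum
  have hc : (κ + 4 * (|a| * cap)) * (|a| * cut src dst u C) ≤ (κ + 4 * (|a| * cap)) * (|a| * cap) :=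
    mul_le_mul_of_nonneg_left (mul_le_mul_of_nonneg_left hcap (abs_nonneg a)) (by positivity)
  unfold pot
  rw [sum_mul_shift, grad_eq]
  nlinarith

/-- **Step drop.** A good cut (`θ cap ≤ |g~(C)|`), a step against the sign of `g~(C)` of size
`θ/16 ≤ |a| cap ≤ θ/8`: the barrier drops by `θ²/64`. -/
theorem step_drop (src dst : E → V) (c : E → ℝ) (b : V → ℝ) {s0 : ℝ} (hs0 : 0 < s0) (t : ℝ)
    (y : V → ℝ) {u w : E → ℝ} {κ θ : ℝ} (hκ : 0 ≤ κ) (hκθ : κ ≤ θ / 4) (hθ : θ ≤ 2)
    (hs : ∀ e, 0 < slack src dst c y e) (hu : ∀ e, wt s0 (slack src dst c y e) ≤ u e)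
    (hw : ∀ e, |w e - wt s0 (slack src dst c y e)| ≤ κ * u e)
    (C : Finset V) {cap a : ℝ} (hcap : cut src dst u C ≤ cap)
    (hgood : θ * cap ≤ |grad src dst b t w C|) (hsign : a * grad src dst b t w C ≤ 0)
    (hlo : θ / 16 ≤ |a| * cap) (hhi : |a| * cap ≤ θ / 8) :
    (∀ e, 0 < slack src dst c (shift y C a) e) ∧
      pot src dst c b s0 t (shift y C a) ≤ pot src dst c b s0 t y - θ ^ 2 / 64 := by
  have ha : |a| * cap ≤ 1 / 4 := by linarith
  refine ⟨slack_shift_pos src dst c y hs hu C hcap ha, ?_⟩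
  have h := pot_shift_le src dst c b hs0 t y hκ hs hu hw C hcap ha
  have h1 : a * grad src dst b t w C = -(|a| * |grad src dst b t w C|) := by
    rw [← abs_mul, abs_of_nonpos hsign]; ring
  have h2 : |a| * (θ * cap) ≤ |a| * |grad src dst b t w C| :=
    mul_le_mul_of_nonneg_left hgood (abs_nonneg a)
  have hθ0 : 0 ≤ θ := by linarith
  set β := |a| * cap
  have hβ : 0 ≤ β := by linarith
  have h3 : |a| * (θ * cap) = θ * β := by simp only [β]; ring
  have h4 : κ * β ≤ θ / 4 * β := mul_le_mul_of_nonneg_right hκθ hβ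
  have h5 : β * β ≤ θ / 8 * β := mul_le_mul_of_nonneg_right hhi hβ
  have h6 : θ * (θ / 16) ≤ θ * β := mul_le_mul_of_nonneg_left hlo hθ0
  nlinarith

omit [Fintype V] in
/-- The total movement of a step in the `u`-weighted l1 norm. -/
theorem sum_move_le (src dst : E → V) (c : E → ℝ) (y : V → ℝ) (u : E → ℝ) (C : Finset V)
    {cap : ℝ} (hcap : cut src dst u C ≤ cap) (a : ℝ) :
    ∑ e, u e * |slack src dst c (shift y C a) e - slack src dst c y e| ≤ |a| * cap := by
  have : ∀ e, u e * |slack src dst c (shift y C a) e - slack src dst c y e| =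
      |a| * (u e * |sgn src dst C e|) := by
    intro e
    rw [slack_shift, add_sub_cancel_left, abs_neg, abs_mul]; ring
  simp_rw [this]
  rw [← mul_sum, ← cut_eq]
  exact mul_le_mul_of_nonneg_left hcap (abs_nonneg a)

end Crest.Agent.N325.Ipm
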